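import Vale.Agent.P218EN.Lin
import Vale.Agent.P218VA.Strip

/-! From coefficientwise jets in the Wiener algebra to functions of `(w, θ)`. -/

namespace Vale.Agent.P218EF
open Filter Topology Set Complex Vale.Agent.P218EN Vale.Agent.P218EN.WA Vale.Agent.P218VA

section
variable {F : Type*} [NormedAddCommGroup F] [NormedSpace ℝ F] {I : Set ℝ}
  {V V1 V2 : ℝ × ℝ → F} {p : ℝ × ℝ}

theorem ev_int (hp : p.1 ∈ interior I) : ∀ᶠ q : ℝ × ℝ in 𝓝 p, q.1 ∈ interior I :=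
  continuous_fst.continuousAt.eventually (isOpen_interior.mem_nhds hp)

omit [NormedSpace ℝ F] in
theorem contAt_int (h : ContinuousOn V (I ×ˢ univ)) (hp : p.1 ∈ interior I) :
    ContinuousAt V p :=
  h.continuousAt ((ev_int hp).mono fun _ hq => ⟨interior_subset hq, mem_univ _⟩)

/-- the linear map with the two given directional derivatives -/
noncomputable def cop (a b : F) : ℝ × ℝ →L[ℝ] F :=
  (ContinuousLinearMap.fst ℝ ℝ ℝ).smulRight a + (ContinuousLinearMap.snd ℝ ℝ ℝ).smulRight b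

theorem cop_apply (a b : F) (v : ℝ × ℝ) : cop a b v = v.1 • a + v.2 • b := rfl

theorem contDiff_cop {n : WithTop ℕ∞} : ContDiff ℝ n fun x : F × F => cop x.1 x.2 :=
  ((ContinuousLinearMap.smulRightL ℝ (ℝ × ℝ) F (ContinuousLinearMap.fst ℝ ℝ ℝ)).contDiff.comp
    contDiff_fst).add
  ((ContinuousLinearMap.smulRightL ℝ (ℝ × ℝ) F (ContinuousLinearMap.snd ℝ ℝ ℝ)).contDiff.comp
    contDiff_snd)

theorem hasFDerivAt_jet1 (h : Jet1 I V V1 V2) (hp : p.1 ∈ interior I) :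
    HasFDerivAt V (cop (V1 p) (V2 p)) p := by
  have k : Continuous fun a : F => ContinuousLinearMap.toSpanSingleton ℝ a :=
    (ContinuousLinearMap.toSpanSingletonCLE (𝕜 := ℝ) (E := F)).continuous
  have h1 := hasStrictFDerivAt_uncurry_coprod (𝕜 := ℝ) (u := p) (f := fun w θ => V (w, θ))
    (f₁ := fun w θ => ContinuousLinearMap.toSpanSingleton ℝ (V1 (w, θ)))
    (f₂ := fun w θ => ContinuousLinearMap.toSpanSingleton ℝ (V2 (w, θ)))
    ((ev_int hp).mono fun q hq => (h.dw q.1 hq q.2).hasFDerivAt)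
    ((ev_int hp).mono fun q hq => (h.dθ q.1 (interior_subset hq) q.2).hasFDerivAt)
    (k.continuousAt.comp (contAt_int h.c1 hp)) (k.continuousAt.comp (contAt_int h.c2 hp))
  exact h1.hasFDerivAt

theorem contDiffAt_jet1_succ {n : ℕ} (h : Jet1 I V V1 V2) (hp : p.1 ∈ interior I)
    (h1 : ContDiffAt ℝ n V1 p) (h2 : ContDiffAt ℝ n V2 p) : ContDiffAt ℝ (n + 1) V p :=
  contDiffAt_succ_iff_hasFDerivAt.2 ⟨fun q => cop (V1 q) (V2 q),
    ⟨_, ev_int hp, fun _ hq => hasFDerivAt_jet1 h hq⟩,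
    contDiff_cop.contDiffAt.comp p (h1.prodMk h2)⟩

theorem contDiffAt_jet1 (h : Jet1 I V V1 V2) (hp : p.1 ∈ interior I) : ContDiffAt ℝ 1 V p := by
  have k : ∀ {U : ℝ × ℝ → F}, ContinuousOn U (I ×ˢ univ) → ContDiffAt ℝ (0 : ℕ) U p := fun hU =>
    contDiffAt_zero.2 ⟨_, (ev_int hp).mono fun _ hq => ⟨interior_subset hq, mem_univ _⟩, hU⟩
  exact contDiffAt_jet1_succ (n := 0) h hp (k h.c1) (k h.c2)

theorem contDiffAt_jet2 {X a b aa ab bb : ℝ × ℝ → F} (h : Jet2 I X a b aa ab bb)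
    (hp : p.1 ∈ interior I) : ContDiffAt ℝ 2 X p :=
  contDiffAt_jet1_succ (n := 1) h.j0 hp (contDiffAt_jet1 h.j1 hp) (contDiffAt_jet1 h.j2 hp)

theorem pd_jet2 {X a b aa ab bb : ℝ × ℝ → F} (h : Jet2 I X a b aa ab bb)
    (hp : p.1 ∈ interior I) :
    pd X (1, 0) p = a p ∧ pd X (0, 1) p = b p ∧ pd (pd X (1, 0)) (1, 0) p = aa p ∧
      pd (pd X (1, 0)) (0, 1) p = ab p ∧ pd (pd X (0, 1)) (0, 1) p = bb p :=
  h.eq_pd hp (contDiffAt_jet2 h hp) (Eventually.of_forall fun _ => rfl)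

theorem jet1_congr {U U1 U2 : ℝ × ℝ → F} (h : Jet1 I V V1 V2)
    (e0 : ∀ w ∈ I, ∀ θ, U (w, θ) = V (w, θ)) (e1 : ∀ w ∈ I, ∀ θ, U1 (w, θ) = V1 (w, θ))
    (e2 : ∀ w ∈ I, ∀ θ, U2 (w, θ) = V2 (w, θ)) : Jet1 I U U1 U2 where
  c0 := h.c0.congr fun q hq => e0 q.1 hq.1 q.2
  c1 := h.c1.congr fun q hq => e1 q.1 hq.1 q.2
  c2 := h.c2.congr fun q hq => e2 q.1 hq.1 q.2
  dw w hw θ := by
    rw [e1 w (interior_subset hw)]
    refine (h.dw w hw θ).congr_of_eventuallyEq ?_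
    filter_upwards [isOpen_interior.mem_nhds hw] with u hu using e0 u (interior_subset hu) θ
  dθ w hw θ := by
    rw [e2 w hw, funext (e0 w hw)]
    exact h.dθ w hw θ
  per w hw θ := by rw [e0 w hw, e0 w hw, h.per w hw]

end

theorem ch_per (k : ℤ) (θ : ℝ) : ch k (θ + 2 * Real.pi) = ch k θ := by
  unfold ch
  rw [exp_eq_exp_iff_exists_int]
  exact ⟨k, by push_cast; ring⟩

theorem ev_per (x : WA) (w θ : ℝ) : x.ev w (θ + 2 * Real.pi) = x.ev w θ :=
  tsum_congr fun k => by rw [ch_per]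

theorem hasDerivAt_ch (k : ℤ) (θ : ℝ) : HasDerivAt (ch k) (k * I * ch k θ) θ := by
  have h : HasDerivAt (fun t : ℝ => (k : ℂ) * t * I) (k * 1 * I) θ :=
    ((hasDerivAt_id θ).ofReal_comp.const_mul (k : ℂ)).mul_const I
  exact h.cexp.congr_deriv (by unfold ch; ring)

theorem norm_term_le (s : ℂ) (x : WA) (k : ℤ) (w θ : ℝ) {M : ℝ} (hs : ‖s‖ ≤ M) :
    ‖s * x.co k w * ch k θ‖ ≤ M * ‖x.co k‖ := by
  rw [norm_mul, norm_mul, norm_ch, mul_one]
  exact mul_le_mul hs ((x.co k).norm_coe_le_norm w) (norm_nonneg _) ((norm_nonneg _).trans hs)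

theorem mul_ev (s : ℂ) (x : WA) (w θ : ℝ) : s * x.ev w θ = ∑' k, s * x.co k w * ch k θ := by
  rw [ev, ← tsum_mul_left]
  exact tsum_congr fun k => (mul_assoc _ _ _).symm

theorem hasDerivAt_ev_th {s s' : ℂ} {x x' : WA} {w : ℝ}
    (h : ∀ k : ℤ, s' * x'.co k w = k * I * (s * x.co k w)) (θ : ℝ) :
    HasDerivAt (fun t => s * x.ev w t) (s' * x'.ev w θ) θ := by
  simp only [mul_ev]
  refine hasDerivAt_tsum (u := fun k => ‖s'‖ * ‖x'.co k‖) (x'.summable.mul_left _)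
    (fun k t => ?_) (fun k t => norm_term_le s' x' k w t le_rfl) (y₀ := θ)
    ((x.summable.mul_left ‖s‖).of_norm_bounded fun k => norm_term_le s x k w θ le_rfl) θ
  rw [h k]
  exact ((hasDerivAt_ch k t).const_mul (s * x.co k w)).congr_deriv (by ring)

theorem hasDerivAt_ev_w {I : Set ℝ} {s s' : ℝ → ℂ} {x x' : WA} (hs' : ContinuousOn s' I)
    (h : ∀ k, ∀ w ∈ I, HasDerivWithinAt (fun u => s u * x.co k u) (s' w * x'.co k w) I w)
    {w : ℝ} (hw : w ∈ interior I) (θ : ℝ) :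
    HasDerivAt (fun u => s u * x.ev u θ) (s' w * x'.ev w θ) w := by
  have h1 : ∀ᶠ u in 𝓝 w, ‖s' u‖ < ‖s' w‖ + 1 :=
    (hs'.continuousAt (mem_interior_iff_mem_nhds.1 hw)).norm.eventually_lt_const (lt_add_one _)
  obtain ⟨δ, hδ, h2⟩ := Metric.eventually_nhds_iff_ball.1
    (h1.and (isOpen_interior.mem_nhds hw))
  simp only [mul_ev]
  refine hasDerivAt_tsum_of_isPreconnected (u := fun k => (‖s' w‖ + 1) * ‖x'.co k‖)
    (g' := fun k u => s' u * x'.co k u * ch k θ)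
    (x'.summable.mul_left _) Metric.isOpen_ball (convex_ball w δ).isPreconnected
    (fun k u hu => ?_) (fun k u hu => norm_term_le _ x' k u θ (h2 u hu).1.le)
    (Metric.mem_ball_self hδ)
    ((x.summable.mul_left ‖s w‖).of_norm_bounded fun k => norm_term_le _ x k w θ le_rfl)
    (Metric.mem_ball_self hδ)
  exact ((h k u (interior_subset (h2 u hu).2)).hasDerivAt
    (mem_interior_iff_mem_nhds.1 (h2 u hu).2)).mul_const _

theorem contOn_mul_ev {I : Set ℝ} {s : ℝ → ℂ} (hs : ContinuousOn s I) (x : WA) :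
    ContinuousOn (fun p : ℝ × ℝ => s p.1 * x.ev p.1 p.2) (I ×ˢ univ) :=
  (hs.comp continuousOn_fst fun _ hp => hp.1).mul x.continuous_ev.continuousOn

/-- first order jets with scalar normalisations `s0, s1, s2` -/
theorem jet1_ev {I : Set ℝ} {s0 s1 s2 : ℝ → ℂ} {x0 x1 x2 : WA} (c0 : ContinuousOn s0 I)
    (c1 : ContinuousOn s1 I) (c2 : ContinuousOn s2 I)
    (hw : ∀ k, ∀ w ∈ I, HasDerivWithinAt (fun u => s0 u * x0.co k u) (s1 w * x1.co k w) I w)
    (ht : ∀ k : ℤ, ∀ w ∈ I, s2 w * x2.co k w = k * Complex.I * (s0 w * x0.co k w)) :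
    Jet1 I (fun p => s0 p.1 * x0.ev p.1 p.2) (fun p => s1 p.1 * x1.ev p.1 p.2)
      (fun p => s2 p.1 * x2.ev p.1 p.2) where
  c0 := contOn_mul_ev c0 _
  c1 := contOn_mul_ev c1 _
  c2 := contOn_mul_ev c2 _
  dw _ h θ := hasDerivAt_ev_w c1 hw h θ
  dθ w h θ := hasDerivAt_ev_th (fun k => ht k w h) θ
  per w _ θ := by simp only [ev_per]

/-- second order jets; `s` and `r` normalise the `w`-derivatives -/
theorem jet2_ev {I : Set ℝ} {s r : ℝ → ℂ} {x0 x1 x2 x3 x4 x5 : WA} (cs : ContinuousOn s I)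
    (cr : ContinuousOn r I)
    (d0 : ∀ k, ∀ w ∈ I, HasDerivWithinAt (x0.co k) (s w * x3.co k w) I w)
    (d3 : ∀ k, ∀ w ∈ I, HasDerivWithinAt (fun u => s u * x3.co k u) (s w * x4.co k w) I w)
    (t1 : ∀ k : ℤ, ∀ w ∈ I, x1.co k w = k * Complex.I * x0.co k w)
    (t2 : ∀ k : ℤ, ∀ w ∈ I, x2.co k w = k * Complex.I * x1.co k w)
    (t5 : ∀ k : ℤ, ∀ w ∈ I, r w * x5.co k w = k * Complex.I * (s w * x3.co k w)) :
    Jet2 I (fun p => x0.ev p.1 p.2) (fun p => s p.1 * x3.ev p.1 p.2) (fun p => x1.ev p.1 p.2)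
      (fun p => s p.1 * x4.ev p.1 p.2) (fun p => r p.1 * x5.ev p.1 p.2)
      (fun p => x2.ev p.1 p.2) := by
  have c1 : ContinuousOn (fun _ : ℝ => (1 : ℂ)) I := continuousOn_const
  refine ⟨?_, jet1_ev cs cs cr d3 t5, ?_⟩
  · simpa only [one_mul] using jet1_ev (x0 := x0) (x1 := x3) (x2 := x1) c1 cs c1
      (by simpa only [one_mul] using d0) (by simpa only [one_mul] using t1)
  · have d1 : ∀ k, ∀ w ∈ I, HasDerivWithinAt (fun u => 1 * x1.co k u) (r w * x5.co k w) I w :=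
      fun k w hw => by
        rw [t5 k w hw]
        exact ((d0 k w hw).const_mul _).congr (fun u hu => by rw [one_mul, t1 k u hu])
          (by rw [one_mul, t1 k w hw])
    simpa only [one_mul] using jet1_ev (x0 := x1) (x1 := x5) (x2 := x2) c1 cr c1 d1
      (by simpa only [one_mul] using t2)

/-- the function level form of `Jet` -/
theorem jet2_of_jet {a b : ℝ} {A : ℝ → ℂ} {J : Fin 6 → WA} (h : Jet a b A J)
    (cA : ContinuousOn A (Icc a b)) (cr : ContinuousOn (fun w => Complex.sqrt (A w)) (Icc a b)) :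
    Jet2 (Icc a b) (fun p => (J 0).ev p.1 p.2) (fun p => A p.1 * (J 3).ev p.1 p.2)
      (fun p => (J 1).ev p.1 p.2) (fun p => A p.1 * (J 4).ev p.1 p.2)
      (fun p => Complex.sqrt (A p.1) * (J 5).ev p.1 p.2) (fun p => (J 2).ev p.1 p.2) := by
  refine jet2_ev cA cr h.d0 h.d3 (fun k w hw => by simpa using h.t1 k w hw)
    (fun k w hw => by simpa using h.t2 k w hw) fun k w hw => ?_
  rw [h.t5 k w hw]
  linear_combination (k * I * (J 3).co k w) * csqrt_sq (A w)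

theorem contOn_sqrt {S : Set ℝ} {A : ℝ → ℂ} (cA : ContinuousOn A S)
    (hA : ∀ w ∈ S, 0 < (A w).re) : ContinuousOn (fun w => Complex.sqrt (A w)) S := fun w hw =>
  (hasDerivAt_csqrt (hA w hw)).continuousAt.comp_continuousWithinAt (f := A) (cA w hw)

theorem jet2_of_coef {a b ε : ℝ} {A A' : ℝ → ℂ} {J : Fin 6 → WA} (h : Jet a b A J)
    (H : Coef a b A A' ε) :
    Jet2 (Icc a b) (fun p => (J 0).ev p.1 p.2) (fun p => A p.1 * (J 3).ev p.1 p.2)
      (fun p => (J 1).ev p.1 p.2) (fun p => A p.1 * (J 4).ev p.1 p.2)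
      (fun p => Complex.sqrt (A p.1) * (J 5).ev p.1 p.2) (fun p => (J 2).ev p.1 p.2) :=
  jet2_of_jet h H.cA (contOn_sqrt H.cA H.re)

end Vale.Agent.P218EF
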